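import Vale.Agent.P060.Minor

/-!
Hadwiger's inequality for dense graphs with independence number at most two.
-/

open Vale.Agent.P060

/-- Let `G` have independence number at most two and at most `D` non-neighbours at every vertex, on
`m` vertices. If `100 (D+1)^3 ≤ (m - χ(G))^2` or `10000 (D+1)^4 ≤ (m - χ(G))^3` then `G` has a complete
minor on `χ(G)` vertices, and if `1600 (D+1)^3 ≤ m^2` or `640000 (D+1)^4 ≤ m^3` then it has one on
`⌈m/2⌉` vertices. -/
theorem Vale.Agent.Results.P060.DenseIndependenceTwo.result (V : Type) [Fintype V]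
    (G : SimpleGraph V) (D : ℕ)
    (hα : ∀ x y z : V, x ≠ y → y ≠ z → x ≠ z → G.Adj x y ∨ G.Adj y z ∨ G.Adj x z)
    (hD : ∀ v, {w | w ≠ v ∧ ¬ G.Adj v w}.ncard ≤ D) :
    (∀ t : ℕ, G.chromaticNumber = t →
      100 * (D + 1) ^ 3 ≤ (Fintype.card V - t) ^ 2 ∨
        10000 * (D + 1) ^ 4 ≤ (Fintype.card V - t) ^ 3 →
      HasCompleteMinor G t) ∧
    (1600 * (D + 1) ^ 3 ≤ Fintype.card V ^ 2 ∨ 640000 * (D + 1) ^ 4 ≤ Fintype.card V ^ 3 →
      HasCompleteMinor G ((Fintype.card V + 1) / 2)) := by
  classical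
  refine ⟨fun t ht hbig => ?_, fun hbig => ?_⟩
  · obtain ⟨L⟩ := exists_layout hα ht
    exact L.minor hD hbig
  · obtain ⟨t, ht⟩ : ∃ t : ℕ, G.chromaticNumber = t := by
      refine ⟨G.chromaticNumber.toNat, (ENat.coe_toNat ?_).symm⟩
      exact SimpleGraph.chromaticNumber_ne_top_iff_exists.2 ⟨_, G.colorable_of_fintype⟩
    obtain ⟨L⟩ := exists_layout hα ht
    have h := L.card_eq
    have h' := Finset.card_le_univ L.single
    rw [Fintype.card_fin] at h'
    by_cases hc : Fintype.card V ≤ 4 * (Fintype.card V - t)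
    · refine (L.minor hD ?_).mono (by omega)
      rcases hbig with hbig | hbig
      · left
        have := Nat.pow_le_pow_left hc 2
        rw [mul_pow] at this
        omega
      · right
        have := Nat.pow_le_pow_left hc 3
        rw [mul_pow] at this
        omega
    · exact L.clique_minor.mono (by omega)
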